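import Crest.Agent.N255.Pt.Tree

/-!
# Row 255 (helper38): the tree of copies of a finite graph with paired walls
-/

set_option autoImplicit false

open scoped Pointwise

noncomputable section

namespace Crest.Agent.N255.Pt

open FreeGroup

/-- vertices of the piece `C`: interior ones and those on the wall in direction `j` -/
abbrev V (ι I Tor : Type) := I ⊕ (ι × Bool) × Tor

/-- vertices of the closed-up complex `Y` -/
abbrev SY (ι I Tor : Type) := I ⊕ ι × Tor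

/-- vertices of the cover -/
abbrev St (ι I Tor : Type) := L (FreeGroup ι) (SY ι I Tor)

variable {ι I Tor K : Type}

/-- the image in `Y` -/
def pj : V ι I Tor → SY ι I Tor
  | .inl a => .inl a
  | .inr (j, t) => .inr (j.1, t)

/-- the copy of `C` at `v` -/
def cp (v : FreeGroup ι) : V ι I Tor → St ι I Tor
  | .inl a => ⟨v, .inl a⟩
  | .inr (j, t) => ⟨og v j, .inr (j.1, t)⟩

/-- the wall of the edge from `v` to `v * of i` -/
def wl (v : FreeGroup ι) (i : ι) (t : Tor) : St ι I Tor := ⟨v, .inr (i, t)⟩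

/-- the finite data -/
structure Dt (ι I Tor K : Type) where
  Γ : SimpleGraph (V ι I Tor)
  glue : ∀ i t t', Γ.Adj (.inr ((i, true), t)) (.inr ((i, true), t')) ↔
    Γ.Adj (.inr ((i, false), t)) (.inr ((i, false), t'))
  col : SY ι I Tor → K
  col_ne : ∀ a b, Γ.Adj a b → col (pj a) ≠ col (pj b)
  dim0 : ∀ τ : Finset (V ι I Tor), Γ.IsClique (τ : Set (V ι I Tor)) → τ.card ≤ 4
  dim1 : ∀ (i : ι) (τ : Finset Tor),
    (τ : Set Tor).Pairwise (fun t t' => Γ.Adj (.inr ((i, true), t)) (.inr ((i, true), t'))) → τ.card ≤ 3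

@[simp] theorem cp_inl (v : FreeGroup ι) (a : I) : cp v (.inl a : V ι I Tor) = ⟨v, .inl a⟩ := rfl

theorem cp_inr (v : FreeGroup ι) (j : ι × Bool) (t : Tor) :
    cp v (.inr (j, t) : V ι I Tor) = wl (og v j) j.1 t := rfl

@[simp] theorem cp_k (v : FreeGroup ι) (a : V ι I Tor) : (cp v a).k = pj a := by
  rcases a with a | ⟨j, t⟩ <;> rfl

theorem smul_cp (g v : FreeGroup ι) (a : V ι I Tor) : g • cp v a = cp (g * v) a := by
  rcases a with a | ⟨j, t⟩
  · rfl
  · exact L.ext (og_mul _ _ _).symm rfl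

theorem smul_wl (g v : FreeGroup ι) (i : ι) (t : Tor) :
    g • (wl v i t : St ι I Tor) = wl (g * v) i t := rfl

theorem wl_injective (v : FreeGroup ι) (i : ι) : Function.Injective (wl (I := I) (Tor := Tor) v i) :=
  fun _ _ h => by simpa [wl] using h

theorem wl_inj {v v' : FreeGroup ι} {i i' : ι} {t t' : Tor} :
    (wl v i t : St ι I Tor) = wl v' i' t' ↔ v = v' ∧ i = i' ∧ t = t' := by simp [wl]

theorem cp_true (v : FreeGroup ι) (i : ι) (t : Tor) :
    cp v (.inr ((i, true), t) : V ι I Tor) = wl v i t := rfl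

theorem cp_op (v : FreeGroup ι) (j : ι × Bool) (t : Tor) :
    cp (v * x j) (.inr (op j, t) : V ι I Tor) = cp v (.inr (j, t)) := by
  rw [cp_inr, cp_inr, og_op, op_fst]

theorem cp_false (v : FreeGroup ι) (i : ι) (t : Tor) :
    cp (v * of i) (.inr ((i, false), t) : V ι I Tor) = wl v i t := cp_op v (i, true) t

theorem cp_eq {v v' : FreeGroup ι} {a a' : V ι I Tor} : cp v a = cp v' a' ↔
    v' = v ∧ a' = a ∨ ∃ j t, a = .inr (j, t) ∧ a' = .inr (op j, t) ∧ v' = v * x j := by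
  refine ⟨fun h => ?_, ?_⟩
  · rcases a with a | ⟨j, t⟩ <;> rcases a' with a' | ⟨j', t'⟩ <;> simp only [cp, L.mk.injEq] at h
    · exact .inl ⟨h.1.symm, by simpa using h.2.symm⟩
    · simp at h
    · simp at h
    · obtain ⟨h1, h2⟩ := h
      simp only [Sum.inr.injEq, Prod.mk.injEq] at h2
      obtain ⟨h2, rfl⟩ := h2
      rcases og_eq h1 h2 with ⟨rfl, rfl⟩ | ⟨rfl, rfl⟩
      · exact .inl ⟨rfl, rfl⟩
      · exact .inr ⟨j, t, rfl, rfl, rfl⟩
  · rintro (⟨rfl, rfl⟩ | ⟨j, t, rfl, rfl, rfl⟩)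
    · rfl
    · exact (cp_op v j t).symm

theorem cp_injective (v : FreeGroup ι) : Function.Injective (cp (I := I) (Tor := Tor) v) := fun a b h => by
  rcases cp_eq.1 h with h | ⟨j, _, _, _, h⟩
  · exact h.2.symm
  · exact absurd (by simpa using h) (x_ne_one j)

theorem exists_cp (s : St ι I Tor) : ∃ a, cp s.v a = s := by
  obtain ⟨v, a | ⟨i, t⟩⟩ := s
  · exact ⟨.inl a, rfl⟩
  · exact ⟨.inr ((i, true), t), rfl⟩

/-- two different copies through a vertex are neighbours and the vertex is on the wall -/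
theorem two_cp {v u : FreeGroup ι} {s : St ι I Tor} (h : s ∈ Set.range (cp v))
    (h' : s ∈ Set.range (cp u)) (e : u ≠ v) : ∃ j t, u = v * x j ∧ s = cp v (.inr (j, t)) := by
  obtain ⟨a, rfl⟩ := h
  obtain ⟨b, hb⟩ := h'
  rcases cp_eq.1 hb.symm with c | ⟨j, t, rfl, -, c⟩
  · exact absurd c.1 e
  · exact ⟨j, t, c, rfl⟩

namespace Dt

variable (D : Dt ι I Tor K)

theorem glue' (j : ι × Bool) (t t' : Tor) :
    D.Γ.Adj (.inr (op j, t)) (.inr (op j, t')) ↔ D.Γ.Adj (.inr (j, t)) (.inr (j, t')) := by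
  obtain ⟨i, _ | _⟩ := j
  · exact D.glue i t t'
  · exact (D.glue i t t').symm

/-- the graph of the cover -/
def Gt : SimpleGraph (St ι I Tor) where
  Adj s s' := ∃ v a a', D.Γ.Adj a a' ∧ cp v a = s ∧ cp v a' = s'
  symm := ⟨by rintro _ _ ⟨v, a, a', h, rfl, rfl⟩; exact ⟨v, a', a, h.symm, rfl, rfl⟩⟩
  loopless := ⟨by rintro _ ⟨v, a, a', h, rfl, e⟩; exact h.ne (cp_injective v e).symm⟩

/-- the wall graph -/
def Tw (i : ι) : SimpleGraph Tor := D.Γ.comap fun t => .inr ((i, true), t)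

theorem adj_cp (v : FreeGroup ι) (a a' : V ι I Tor) : D.Gt.Adj (cp v a) (cp v a') ↔ D.Γ.Adj a a' := by
  refine ⟨?_, fun h => ⟨v, a, a', h, rfl, rfl⟩⟩
  rintro ⟨u, b, b', h, e, e'⟩
  by_cases c : u = v
  · subst c
    rwa [← cp_injective u e, ← cp_injective u e']
  · rcases cp_eq.1 e with d | ⟨j, t, rfl, rfl, d⟩
    · exact absurd d.1.symm c
    · rcases cp_eq.1 e' with d' | ⟨j', t', rfl, rfl, d'⟩
      · exact absurd d'.1.symm c
      · obtain rfl : j = j' := x_injective (mul_left_cancel (d.symm.trans d'))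
        exact (D.glue' j t t').2 h

theorem adj_wl (v : FreeGroup ι) (i : ι) (t t' : Tor) :
    D.Gt.Adj (wl v i t) (wl v i t') ↔ (D.Tw i).Adj t t' :=
  D.adj_cp v (.inr ((i, true), t)) (.inr ((i, true), t'))

theorem adj_wall (j : ι × Bool) (t t' : Tor) :
    D.Γ.Adj (.inr (j, t)) (.inr (j, t')) ↔ (D.Tw j.1).Adj t t' := by
  obtain ⟨i, _ | _⟩ := j
  · exact (D.glue i t t').symm
  · rfl

theorem adj_smul' (g : FreeGroup ι) {s s' : St ι I Tor} (h : D.Gt.Adj s s') : D.Gt.Adj (g • s) (g • s') := by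
  obtain ⟨v, a, a', h, rfl, rfl⟩ := h
  exact ⟨g * v, a, a', h, (smul_cp ..).symm, (smul_cp ..).symm⟩

theorem adj_smul (g : FreeGroup ι) (s s' : St ι I Tor) : D.Gt.Adj (g • s) (g • s') ↔ D.Gt.Adj s s' :=
  ⟨fun h => by simpa using D.adj_smul' g⁻¹ h, D.adj_smul' g⟩

/-- the colouring of the cover -/
def cl (s : St ι I Tor) : K := D.col s.k

theorem cl_smul (g : FreeGroup ι) (s : St ι I Tor) : D.cl (g • s) = D.cl s := rfl

theorem cl_cp (v : FreeGroup ι) (a : V ι I Tor) : D.cl (cp v a) = D.col (pj a) := by rw [cl, cp_k]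

theorem cl_ne {s s' : St ι I Tor} (h : D.Gt.Adj s s') : D.cl s ≠ D.cl s' := by
  obtain ⟨v, a, a', h, rfl, rfl⟩ := h
  rw [cl_cp, cl_cp]
  exact D.col_ne a a' h

/-- every clique lies in one copy -/
theorem helly {A : Set (St ι I Tor)} (h : D.Gt.IsClique A) : ∃ v, A ⊆ Set.range (cp v) := by
  rcases A.eq_empty_or_nonempty with rfl | ⟨s, hs⟩
  · exact ⟨1, Set.empty_subset _⟩
  by_contra c
  simp only [not_exists, Set.not_subset] at c
  have k : ∀ {s s'}, s ∈ A → s' ∈ A → s ≠ s' → ∃ u, s ∈ Set.range (cp u) ∧ s' ∈ Set.range (cp u) :=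
    fun a b e => by
      obtain ⟨u, p, q, -, rfl, rfl⟩ := h a b e
      exact ⟨u, ⟨p, rfl⟩, ⟨q, rfl⟩⟩
  have m : s ∈ Set.range (cp s.v) := exists_cp s
  obtain ⟨s1, h1, n1⟩ := c s.v
  obtain ⟨v', p1, q1⟩ := k hs h1 fun e => n1 (e ▸ m)
  have e1 : v' ≠ s.v := fun e => n1 (e ▸ q1)
  obtain ⟨j, t, ej, es⟩ := two_cp m p1 e1
  obtain ⟨s2, h2, n2⟩ := c v'
  obtain ⟨v'', p2, q2⟩ := k hs h2 fun e => n2 (e ▸ p1)
  have e2 : v'' = s.v := by
    by_contra e
    obtain ⟨j', t', ej', es'⟩ := two_cp m p2 e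
    have := cp_injective _ (es.symm.trans es')
    simp only [Sum.inr.injEq, Prod.mk.injEq] at this
    exact n2 (by rw [ej, this.1, ← ej']; exact q2)
  rw [e2] at q2
  obtain ⟨u, p3, q3⟩ := k h1 h2 fun e => n1 (e ▸ q2)
  obtain ⟨a, -, ea, -⟩ := two_cp q1 p3 fun e => n2 (e ▸ q3)
  obtain ⟨b, -, eb, -⟩ := two_cp q2 q3 fun e => n1 (e ▸ p3)
  exact x_mul_x_ne j a b (mul_left_cancel (a := s.v) (by rw [← mul_assoc, ← ej, ← ea, eb]))

theorem clique_cp (v : FreeGroup ι) (A : Set (V ι I Tor)) : D.Gt.IsClique (cp v '' A) ↔ D.Γ.IsClique A := by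
  refine ⟨fun h a ha b hb e => (D.adj_cp v a b).1 (h ⟨a, ha, rfl⟩ ⟨b, hb, rfl⟩ ((cp_injective v).ne e)), ?_⟩
  rintro h _ ⟨a, ha, rfl⟩ _ ⟨b, hb, rfl⟩ e
  exact (D.adj_cp v a b).2 (h ha hb fun c => e (c ▸ rfl))

theorem clique_wl (v : FreeGroup ι) (i : ι) (A : Set Tor) :
    D.Gt.IsClique (wl v i '' A) ↔ (D.Tw i).IsClique A := by
  refine ⟨fun h a ha b hb e => (D.adj_wl v i a b).1 (h ⟨a, ha, rfl⟩ ⟨b, hb, rfl⟩ ((wl_injective v i).ne e)), ?_⟩
  rintro h _ ⟨a, ha, rfl⟩ _ ⟨b, hb, rfl⟩ e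
  exact (D.adj_wl v i a b).2 (h ha hb fun c => e (c ▸ rfl))

theorem card_le_four {τ : Finset (St ι I Tor)} (h : D.Gt.IsClique (τ : Set (St ι I Tor))) : τ.card ≤ 4 := by
  classical
  obtain ⟨v, hv⟩ := D.helly h
  rw [← Set.image_univ] at hv
  obtain ⟨σ, -, rfl⟩ := Finset.subset_set_image_iff.1 hv
  rw [Finset.card_image_of_injective _ (cp_injective v)]
  exact D.dim0 σ ((D.clique_cp v σ).1 (by simpa using h))

theorem card_le_three {τ : Finset (St ι I Tor)} (h : D.Gt.IsClique (τ : Set (St ι I Tor)))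
    {v : FreeGroup ι} {i : ι} (hv : ↑τ ⊆ Set.range (wl (I := I) (Tor := Tor) v i)) : τ.card ≤ 3 := by
  classical
  rw [← Set.image_univ] at hv
  obtain ⟨σ, -, rfl⟩ := Finset.subset_set_image_iff.1 hv
  rw [Finset.card_image_of_injective _ (wl_injective v i)]
  exact D.dim1 i σ ((D.clique_wl v i σ).1 (by simpa using h))

end Dt

/-- the vertices over a node -/
def supN : Nd ι → Set (St ι I Tor)
  | ⟨v, none⟩ => Set.range (cp v)
  | ⟨v, some i⟩ => Set.range (wl v i)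

/-- the vertices over a half edge -/
def supE (e : Ed ι) : Set (St ι I Tor) := Set.range (wl (og e.v e.k) e.k.1)

theorem supE_tgt (e : Ed ι) : (supN (tgt e) : Set (St ι I Tor)) = supE e := rfl

theorem supN_src (e : Ed ι) : (supN (src e) : Set (St ι I Tor)) = Set.range (cp e.v) := rfl

theorem supE_src (e : Ed ι) : (supE e : Set (St ι I Tor)) ⊆ supN (src e) := by
  rintro _ ⟨t, rfl⟩
  exact ⟨.inr (e.k, t), rfl⟩

theorem smul_mem_supN (g : FreeGroup ι) {s : St ι I Tor} {n : Nd ι} (h : s ∈ supN n) :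
    g • s ∈ supN (g • n) := by
  obtain ⟨v, _ | i⟩ := n <;> obtain ⟨a, rfl⟩ := h
  · exact ⟨a, (smul_cp ..).symm⟩
  · exact ⟨a, rfl⟩

theorem smul_mem_supN_iff (g : FreeGroup ι) (s : St ι I Tor) (n : Nd ι) :
    g • s ∈ supN (g • n) ↔ s ∈ supN n :=
  ⟨fun h => by simpa using smul_mem_supN g⁻¹ h, smul_mem_supN g⟩

theorem smul_mem_supE_iff (g : FreeGroup ι) (s : St ι I Tor) (e : Ed ι) :
    g • s ∈ supE (g • e) ↔ s ∈ supE e := by
  rw [← supE_tgt, ← supE_tgt, tgt_smul, smul_mem_supN_iff]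

theorem supN_finite [Finite ι] [Finite I] [Finite Tor] (n : Nd ι) : (supN n : Set (St ι I Tor)).Finite := by
  obtain ⟨v, _ | i⟩ := n <;> exact Set.finite_range _

theorem supE_finite [Finite Tor] (e : Ed ι) : (supE e : Set (St ι I Tor)).Finite := Set.finite_range _

/-- mirrors are convex -/
theorem cvx [DecidableEq ι] (r : FreeGroup ι) (e : Ed ι) {s : St ι I Tor} (h : s ∈ supN ⟨r, none⟩)
    (h' : s ∈ supN (up r e)) : s ∈ supE e := by
  unfold up at h'
  split_ifs at h' with a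
  · unfold Dn at a
    have n : r ≠ e.v := fun c => by simp [c] at a
    obtain ⟨j, t, ej, rfl⟩ := two_cp (v := e.v) h' h n
    have : e.k = j := down_unique a (by
      rw [mul_assoc, ← ej, inv_mul_cancel, FreeGroup.norm_one]; omega)
    exact ⟨t, by rw [this, cp_inr]⟩
  · exact h'

end Crest.Agent.N255.Pt
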