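import Crest.Agent.N255.Pt.Mir
import Crest.Agent.N255.Ch.Loc

/-!
# Row 255 (helper38): the local hypotheses of the chamber lemma from the facts about one finite graph
-/

set_option autoImplicit false
open Finsupp

noncomputable section

namespace Crest.Agent.N255.Pt

open Ch

section map
variable {S S' K : Type} (j : S' ↪ S)

/-- push forward of coefficient functions -/
def ps (z : Finset S' → ℤ) : Finset S → ℤ := Function.extend (Finset.map j) z 0

theorem ps_map (z : Finset S' → ℤ) (u : Finset S') : ps j z (u.map j) = z u :=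
  (Finset.map_injective j).extend_apply _ _ _

theorem ps_ne {z : Finset S' → ℤ} {t : Finset S} (h : ps j z t ≠ 0) : ∃ u, u.map j = t ∧ z u ≠ 0 := by
  by_cases e : ∃ u : Finset S', u.map j = t
  · obtain ⟨u, rfl⟩ := e
    exact ⟨u, rfl, by rwa [ps_map] at h⟩
  · exact absurd (Function.extend_apply' _ _ _ e) h

theorem pe_ps (z : Finset S' → ℤ) (a : Finset S' →₀ ℤ) : pe (ps j z) (pf j a) = pe z a := by
  rw [pe_pf]; simp only [ps_map]

variable {Γ : SimpleGraph S} {Γ' : SimpleGraph S'} {col : S → K} {col' : S' → K}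
  (hadj : ∀ x y, Γ.Adj (j x) (j y) ↔ Γ'.Adj x y) (hc : ∀ x, col (j x) = col' x)

include hadj

theorem Q_map {U t0 t : Finset S'} : t.map j ∈ Q Γ (U.map j) (t0.map j) ↔ t ∈ Q Γ' U t0 :=
  and_congr (clique_map j hadj t) (and_congr Finset.map_subset_map Finset.map_subset_map)

theorem Q_map' {U t : Finset S'} : t.map j ∈ Q Γ (U.map j) ∅ ↔ t ∈ Q Γ' U ∅ := Q_map j hadj (t0 := ∅)

theorem Q_ex {U : Finset S'} {t : Finset S} (h : t ∈ Q Γ (U.map j) ∅) : ∃ u ∈ Q Γ' U ∅, u.map j = t := by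
  obtain ⟨u, -, rfl⟩ := Finset.subset_map_iff.1 h.2.2
  exact ⟨u, (Q_map' j hadj).1 h, rfl⟩

theorem sup_map {U : Finset S'} {z : Finset S' → ℤ} {n : ℕ} (h : ∀ t, z t ≠ 0 → t ∈ Q Γ' U ∅ ∧ t.card = n)
    (t : Finset S) (ht : ps j z t ≠ 0) : t ∈ Q Γ (U.map j) ∅ ∧ t.card = n := by
  obtain ⟨u, rfl, hu⟩ := ps_ne j ht
  exact ⟨(Q_map' j hadj).2 (h u hu).1, (Finset.card_map _).trans (h u hu).2⟩

theorem top_map {U : Finset S'} {z : Finset S' → ℤ}
    (h : ∀ t0 ∈ Q Γ' U ∅, ∃ t ∈ Q Γ' U t0, z t = 1 ∨ z t = -1) :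
    ∀ t0 ∈ Q Γ (U.map j) ∅, ∃ t ∈ Q Γ (U.map j) t0, ps j z t = 1 ∨ ps j z t = -1 := fun t0 h0 => by
  obtain ⟨u, hu, rfl⟩ := Q_ex j hadj h0
  obtain ⟨t, ht, e⟩ := h u hu
  exact ⟨t.map j, (Q_map j hadj).2 ht, by rwa [ps_map]⟩

variable [DecidableEq S] [DecidableEq S'] [LinearOrder K]

include hc

theorem pe_dq (z : Finset S' → ℤ) (U u : Finset S') :
    pe (ps j z) (dq Γ col (U.map j) (single (u.map j) 1)) = pe z (dq Γ' col' U (single u 1)) := by
  rw [← pf_single, dq_pf j hadj hc, pe_ps]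

theorem ex_map {z : Finset S' → ℤ} {U t0 : Finset S'} (h : Ex (dq Γ' col' U) (pe z) (Sp (Q Γ' U t0))) :
    Ex (dq Γ col (U.map j)) (pe (ps j z)) (Sp (Q Γ (U.map j) (t0.map j))) :=
  Ex.pf j hadj hc (by simpa only [ps_map] using h)

theorem tor_map {T : Finset S'} {m l ω : Finset S' → ℤ} (h : Tor Γ' col' T m l ω) :
    Tor Γ col (T.map j) (ps j m) (ps j l) (ps j ω) where
  m_sup := sup_map j hadj h.m_sup
  l_sup := sup_map j hadj h.l_sup
  ω_sup := sup_map j hadj h.ω_sup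
  m_cyc t ht := by
    obtain ⟨u, hu, rfl⟩ := Q_ex j hadj ht
    rw [pe_dq j hadj hc, h.m_cyc u hu]
  l_cyc t ht := by
    obtain ⟨u, hu, rfl⟩ := Q_ex j hadj ht
    rw [pe_dq j hadj hc, h.l_cyc u hu]
  ω_cyc t ht := by
    obtain ⟨u, hu, rfl⟩ := Q_ex j hadj ht
    rw [pe_dq j hadj hc, h.ω_cyc u hu]
  top := top_map j hadj h.top
  link t ht hn := by
    obtain ⟨u, hu, rfl⟩ := Q_ex j hadj ht
    exact ex_map j hadj hc (h.link u hu (Finset.map_nonempty.1 hn))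
  glob y hy hd h1 h2 h3 := by
    obtain ⟨a, ha, rfl⟩ := exists_pf j hadj (t0 := ∅) hy
    rw [dq_pf j hadj hc, ← map_zero (pf j)] at hd
    rw [pe_ps] at h1 h2 h3
    obtain ⟨b, hb, rfl⟩ := h.glob a ha (pf_inj j hd) h1 h2 h3
    exact ⟨_, pf_mem j hadj hb, dq_pf j hadj hc T b⟩

theorem wal_map {ι ι' : Type} [DecidableEq ι] [DecidableEq ι'] {J : Set ι} {C : Finset S'}
    {T' : ι' → Finset S'} {o : Finset S' → ℤ} {m' l' ω' : ι' → Finset S' → ℤ}
    (h : Wal Γ' col' Set.univ C T' o m' l' ω') (k : ι → ι') (g : ι' → ι) (hg : ∀ i, g i ∈ J)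
    (kg : ∀ i, k (g i) = i) (gk : ∀ i ∈ J, g (k i) = i) {T : ι → Finset S} {m l ω : ι → Finset S → ℤ}
    (hT : ∀ i ∈ J, T i = (T' (k i)).map j) (hm : ∀ i ∈ J, m i = ps j (m' (k i)))
    (hl : ∀ i ∈ J, l i = ps j (l' (k i))) (hω : ∀ i ∈ J, ω i = ps j (ω' (k i))) :
    Wal Γ col J (C.map j) T (ps j o) m l ω := by
  have n : ∀ u : Finset S', (∀ i ∈ J, ¬u.map j ⊆ T i) → ∀ i ∈ (Set.univ : Set ι'), ¬u ⊆ T' i :=
    fun u a i _ b => a (g i) (hg i) (by rw [hT _ (hg i), kg]; exact Finset.map_subset_map.2 b)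
  have ie : ∀ i ∈ J, ∀ i' ∈ J, k i = k i' ↔ i = i' := fun i a i' b =>
    ⟨fun e => by rw [← gk i a, e, gk i' b], congrArg k⟩
  refine ⟨sup_map j hadj h.o_sup, top_map j hadj h.top, fun t ht a => ?_, fun i hi t ht => ?_,
    fun t ht hn a => ?_, fun i hi t ht hn => ?_, fun y hy hd a => ?_, fun i hi => ?_, ?_⟩
  · obtain ⟨u, hu, rfl⟩ := Q_ex j hadj ht
    rw [pe_dq j hadj hc, h.st_in u hu (n u a)]
  · rw [hT i hi] at ht
    obtain ⟨u, hu, rfl⟩ := Q_ex j hadj ht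
    rw [pe_dq j hadj hc, hω i hi, ps_map, h.st_bd _ trivial u hu]
  · obtain ⟨u, hu, rfl⟩ := Q_ex j hadj ht
    exact ex_map j hadj hc (h.link_in u hu (Finset.map_nonempty.1 hn) (n u a))
  · rw [hT i hi] at ht
    obtain ⟨u, hu, rfl⟩ := Q_ex j hadj ht
    intro b hb hd _
    obtain ⟨a, ha, rfl⟩ := exists_pf j hadj hb
    rw [dq_pf j hadj hc, ← map_zero (pf j)] at hd
    obtain ⟨a', ha', rfl⟩ := h.link_bd _ trivial u hu (Finset.map_nonempty.1 hn) a ha (pf_inj j hd) rfl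
    exact ⟨_, pf_mem j hadj ha', dq_pf j hadj hc C a'⟩
  · obtain ⟨b, hb, rfl⟩ := exists_pf j hadj (t0 := ∅) hy
    rw [dq_pf j hadj hc, ← map_zero (pf j)] at hd
    obtain ⟨c, hc', rfl⟩ := h.glob b hb (pf_inj j hd) fun i _ => by
      have := a (g i) (hg i)
      rwa [hm _ (hg i), hω _ (hg i), kg, pe_ps, pe_ps] at this
    exact ⟨_, pf_mem j hadj hc', dq_pf j hadj hc C c⟩
  · obtain ⟨y, hy, hd, a⟩ := h.one (k i) trivial
    refine ⟨pf j y, pf_mem j hadj (t0 := ∅) hy, by rw [dq_pf j hadj hc, hd, map_zero], fun i' hi' => ?_⟩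
    rw [hm i' hi', hl i' hi', hω i' hi', pe_ps, pe_ps, pe_ps]
    simpa only [ie i' hi' i hi] using a (k i') trivial
  · obtain ⟨j0, h0⟩ := h.two
    refine ⟨g j0, fun i hi => ?_⟩
    obtain ⟨y, hy, hd, a⟩ := h0 (k i) trivial
    refine ⟨pf j y, pf_mem j hadj (t0 := ∅) hy, by rw [dq_pf j hadj hc, hd, map_zero], fun i' hi' => ?_⟩
    rw [hm i' hi', hl i' hi', hω i' hi', pe_ps, pe_ps, pe_ps]
    have := a (k i') trivial
    rw [← kg j0] at this
    simpa only [ie i' hi' i hi, ie i' hi' _ (hg j0)] using this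

end map

variable {ι I Tor K : Type}

/-- the wall of `C` in direction `j` -/
def wT [Fintype Tor] (j : ι × Bool) : Finset (V ι I Tor) := Finset.univ.map (inW j)

theorem mem_wT [Fintype Tor] {j : ι × Bool} {a : V ι I Tor} : a ∈ wT j ↔ ∃ t, .inr (j, t) = a := by
  simp [wT]

theorem map_cpE (v : FreeGroup ι) (j : ι × Bool) (u : Finset Tor) :
    (u.map (inW j)).map (cpE v : V ι I Tor ↪ _) = u.map (wlE (og v j) j.1) := by
  rw [Finset.map_map, inW_trans]

theorem map_cpE_op (v : FreeGroup ι) (j : ι × Bool) (u : Finset Tor) :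
    (u.map (inW (op j))).map (cpE (v * x j) : V ι I Tor ↪ _) = (u.map (inW j)).map (cpE v) := by
  rw [map_cpE, map_cpE, og_op, op_fst]

/-- functions on the two sides of a wall agree if they agree in the labels -/
theorem ps_op [Fintype Tor] (v : FreeGroup ι) (j : ι × Bool) {z z' : Finset (V ι I Tor) → ℤ} (c : ℤ)
    (hz : ∀ t, z t ≠ 0 → t ⊆ wT j) (hz' : ∀ t, z' t ≠ 0 → t ⊆ wT (op j))
    (h : ∀ u : Finset Tor, z' (u.map (inW (op j))) = c * z (u.map (inW j))) (t : Finset (St ι I Tor)) :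
    ps (cpE (v * x j)) z' t = c * ps (cpE v) z t := by
  by_cases e : ∃ u : Finset Tor, (u.map (inW j)).map (cpE v) = t
  · obtain ⟨u, rfl⟩ := e
    rw [ps_map, ← map_cpE_op, ps_map, h]
  · have a : ps (cpE v) z t = 0 := by_contra fun a => by
      obtain ⟨w, rfl, b⟩ := ps_ne _ a
      obtain ⟨u, -, rfl⟩ := Finset.subset_map_iff.1 (hz w b)
      exact e ⟨u, rfl⟩
    rw [a, mul_zero]
    by_contra a
    obtain ⟨w, rfl, b⟩ := ps_ne _ a
    obtain ⟨u, -, rfl⟩ := Finset.subset_map_iff.1 (hz' w b)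
    exact e ⟨u, (map_cpE_op ..).symm⟩

variable [Fintype ι] [Fintype I] [Fintype Tor] [DecidableEq ι] [DecidableEq I] [DecidableEq Tor]
  [LinearOrder K]

namespace Dt

variable (D : Dt ι I Tor K)

/-- the colouring of `C` -/
def cv (a : V ι I Tor) : K := D.col (pj a)

/-- **the finite facts** about the graph of `C` -/
structure Fc where
  o : Finset (V ι I Tor) → ℤ
  m : ι × Bool → Finset (V ι I Tor) → ℤ
  l : ι × Bool → Finset (V ι I Tor) → ℤ
  ω : ι × Bool → Finset (V ι I Tor) → ℤ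
  m_op : ∀ j (u : Finset Tor), m (op j) (u.map (inW (op j))) = l j (u.map (inW j))
  ω_op : ∀ j (u : Finset Tor), ω (op j) (u.map (inW (op j))) = -ω j (u.map (inW j))
  tor : ∀ j, Ch.Tor D.Γ D.cv (wT j) (m j) (l j) (ω j)
  wal : Wal D.Γ D.cv Set.univ Finset.univ wT o m l ω

omit [Fintype ι] [Fintype I] [Fintype Tor] [LinearOrder K] in
theorem image_ρ (f v : FreeGroup ι) (u : Finset (V ι I Tor)) :
    (u.map (cpE v)).image (D.ρ f) = u.map (cpE (f * v)) := by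
  rw [Finset.map_eq_image, Finset.map_eq_image, Finset.image_image]
  exact Finset.image_congr fun a _ => smul_cp f v a

omit [DecidableEq ι] [DecidableEq I] [DecidableEq Tor] [LinearOrder K] in
theorem sp_tgt' (e : Ed ι) : (sp (tgt e) : Finset (St ι I Tor)) = (wT e.k).map (cpE e.v) :=
  (map_cpE ..).symm

variable {D}

theorem Fc.m_eq (h : D.Fc) (v : FreeGroup ι) (j : ι × Bool) :
    ps (cpE (v * x j)) (h.m (op j)) = ps (cpE v) (h.l j) := funext fun t =>
  (ps_op v j 1 (fun t a => ((h.tor j).l_sup t a).1.2.2) (fun t a => ((h.tor _).m_sup t a).1.2.2)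
    (fun u => by rw [h.m_op, one_mul]) t).trans (one_mul _)

/-- **the local structure of the model** -/
def Fc.loc (h : D.Fc) : Loc D.mir where
  op e := ⟨e.v * x e.k, op e.k⟩
  op_ne e a := op_ne e.k (congrArg L.k a)
  tgt_op := tgt_op
  tgt_eq _ _ := tgt_eq
  mid := by
    rintro ⟨v, _ | i⟩ a
    · exact absurd rfl a
    · exact ⟨⟨v, i, true⟩, rfl⟩
  wall := sp_tgt_subset
  w1 e e' s a b := by
    obtain ⟨t, rfl⟩ := mem_sp.1 a
    obtain ⟨t', b⟩ := mem_sp.1 b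
    obtain ⟨b1, b2, -⟩ := wl_inj.1 b
    exact L.ext b1.symm (congrArg some b2.symm)
  w2 := by
    rintro ⟨v, _ | i⟩ ⟨v', _ | i'⟩ s a b c d d'
    · have n : v' ≠ v := fun e => c (by rw [e])
      obtain ⟨j, t, rfl, -⟩ := two_cp (mem_sp.1 d) (mem_sp.1 d') n
      refine ⟨⟨v, j⟩, rfl, rfl, fun s' hs => ?_⟩
      obtain ⟨j', t', e, rfl⟩ := two_cp (mem_sp.1 (Finset.mem_inter.1 hs).1)
        (mem_sp.1 (Finset.mem_inter.1 hs).2) n
      obtain rfl : j = j' := x_injective (mul_left_cancel e)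
      exact mem_sp.2 ⟨t', rfl⟩
    · exact absurd (Option.some_ne_none _) b
    · exact absurd (Option.some_ne_none _) a
    · exact absurd (Option.some_ne_none _) a
  src_op e a := x_ne_one e.k (by simpa [src] using a)
  vtx := ⟨⟨1, none⟩, fun a => a rfl⟩
  o n := ps (cpE n.v) h.o
  m e := ps (cpE e.v) (h.m e.k)
  ω e := ps (cpE e.v) (h.ω e.k)
  ω_op e t := (ps_op e.v e.k (-1) (fun t a => ((h.tor _).ω_sup t a).1.2.2)
    (fun t a => ((h.tor _).ω_sup t a).1.2.2) (fun u => by rw [h.ω_op, neg_one_mul]) t).trans (neg_one_mul _)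
  o_smul := by
    rintro f ⟨v, _ | i⟩ t a b
    · obtain ⟨u, -, rfl⟩ := Finset.subset_map_iff.1 b
      exact (congrArg _ (D.image_ρ f v u)).trans ((ps_map ..).trans (ps_map ..).symm)
    · exact absurd (Option.some_ne_none _) a
  ω_smul f e t b := by
    obtain ⟨u, -, rfl⟩ := Finset.subset_map_iff.1 (b.trans (sp_tgt_subset e))
    exact (congrArg _ (D.image_ρ f e.v u)).trans ((ps_map ..).trans (ps_map ..).symm)
  tor e := by
    have := tor_map (cpE e.v) (D.adj_cp e.v) (D.cl_cp e.v) (h.tor e.k)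
    rwa [← sp_tgt', ← h.m_eq] at this
  wal := by
    rintro ⟨v, _ | i⟩ a
    · have k : ∀ e ∈ {e : Ed ι | D.mir.src e = ⟨v, none⟩}, e.v = v := fun e a => congrArg (L.v : Nd ι → _) a
      exact wal_map (cpE v) (D.adj_cp v) (D.cl_cp v) h.wal L.k (fun j => ⟨v, j⟩) (fun _ => rfl)
        (fun _ => rfl) (fun e a => L.ext (k e a).symm rfl) (fun e a => k e a ▸ sp_tgt' e)
        (fun e a => k e a ▸ rfl) (fun e a => k e a ▸ h.m_eq e.v e.k) fun e a => k e a ▸ rfl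
    · exact absurd (Option.some_ne_none _) a

end Dt

end Crest.Agent.N255.Pt
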