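import Mathlib

/-!
# Row 255 (helper38): the subdivided Cayley tree of a free group, rooted at any vertex
-/

set_option autoImplicit false

noncomputable section

namespace Crest.Agent.N255.Pt

open FreeGroup

/-- `F × K` with `F` acting on the first factor -/
@[ext] structure L (F K : Type) where
  v : F
  k : K
  deriving DecidableEq

instance {F K : Type} [Group F] : MulAction F (L F K) where
  smul g a := ⟨g * a.v, a.k⟩
  one_smul _ := L.ext (one_mul _) rfl
  mul_smul _ _ _ := L.ext (mul_assoc _ _ _) rfl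

section
variable {F K : Type} [Group F]

@[simp] theorem smul_mk (g v : F) (k : K) : g • (⟨v, k⟩ : L F K) = ⟨g * v, k⟩ := rfl
@[simp] theorem smul_v (g : F) (a : L F K) : (g • a).v = g * a.v := rfl
@[simp] theorem smul_k (g : F) (a : L F K) : (g • a).k = a.k := rfl

theorem L.free (g : F) (a : L F K) (h : g • a = a) : g = 1 := by
  simpa using congrArg L.v h

theorem L.fin [Finite K] : ∃ s : Set (L F K), s.Finite ∧ ∀ a : L F K, ∃ g : F, g • a ∈ s :=
  ⟨Set.range fun k => ⟨1, k⟩, Set.finite_range _, fun a => ⟨a.v⁻¹, a.k, L.ext (by simp) rfl⟩⟩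

end

variable {ι : Type}

/-- the letter in direction `j` -/
def x (j : ι × Bool) : FreeGroup ι := FreeGroup.mk [j]

/-- the opposite direction -/
def op (j : ι × Bool) : ι × Bool := (j.1, !j.2)

@[simp] theorem op_op (j : ι × Bool) : op (op j) = j := by simp [op]
@[simp] theorem op_fst (j : ι × Bool) : (op j).1 = j.1 := rfl
theorem op_ne (j : ι × Bool) : op j ≠ j := fun h => by simpa [op] using congrArg Prod.snd h
@[simp] theorem op_true (i : ι) : op (i, true) = (i, false) := rfl
@[simp] theorem op_false (i : ι) : op (i, false) = (i, true) := rfl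
theorem x_true (i : ι) : x (i, true) = of i := rfl

@[simp] theorem x_op (j : ι × Bool) : x (op j) = (x j)⁻¹ := by
  rw [x, x, FreeGroup.inv_mk]; rfl

theorem x_false (i : ι) : x (i, false) = (of i)⁻¹ := x_op (i, true)

theorem eq_or_op {j j' : ι × Bool} (h : j'.1 = j.1) : j' = j ∨ j' = op j := by
  obtain ⟨i, b⟩ := j
  obtain ⟨i', b'⟩ := j'
  cases h
  cases b <;> cases b' <;> simp

/-- nodes: `⟨v, none⟩` a vertex, `⟨v, some i⟩` the midpoint of the edge from `v` to `v * of i` -/
abbrev Nd (ι : Type) := L (FreeGroup ι) (Option ι)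

/-- half edges: `⟨v, j⟩` starts at `v` in direction `j` -/
abbrev Ed (ι : Type) := L (FreeGroup ι) (ι × Bool)

/-- the origin of the edge at `v` in direction `j` -/
def og (v : FreeGroup ι) (j : ι × Bool) : FreeGroup ι := if j.2 then v else v * x j

@[simp] theorem og_true (v : FreeGroup ι) (i : ι) : og v (i, true) = v := rfl
@[simp] theorem og_false (v : FreeGroup ι) (i : ι) : og v (i, false) = v * x (i, false) := rfl

theorem og_mul (g v : FreeGroup ι) (j : ι × Bool) : og (g * v) j = g * og v j := by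
  unfold og; split_ifs <;> simp [mul_assoc]

@[simp] theorem og_op (v : FreeGroup ι) (j : ι × Bool) : og (v * x j) (op j) = og v j := by
  obtain ⟨i, _ | _⟩ := j
  · rfl
  · simp [x_true, x_false]

theorem og_inj {v v' : FreeGroup ι} {j : ι × Bool} (h : og v j = og v' j) : v = v' := by
  obtain ⟨i, _ | _⟩ := j <;> simpa using h

theorem og_eq {v v' : FreeGroup ι} {j j' : ι × Bool} (h : og v j = og v' j') (e : j.1 = j'.1) :
    v' = v ∧ j' = j ∨ v' = v * x j ∧ j' = op j := by
  rcases eq_or_op e.symm with rfl | rfl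
  · exact .inl ⟨(og_inj h).symm, rfl⟩
  · exact .inr ⟨og_inj (h.symm.trans (og_op v j).symm), rfl⟩

/-- the vertex of a half edge -/
def src (e : Ed ι) : Nd ι := ⟨e.v, none⟩

/-- the midpoint of a half edge -/
def tgt (e : Ed ι) : Nd ι := ⟨og e.v e.k, some e.k.1⟩

theorem src_smul (g : FreeGroup ι) (e : Ed ι) : src (g • e) = g • src e := rfl

theorem tgt_smul (g : FreeGroup ι) (e : Ed ι) : tgt (g • e) = g • tgt e := L.ext (og_mul _ _ _) rfl

theorem smul_src_ne (g : FreeGroup ι) (e e' : Ed ι) : g • src e ≠ tgt e' := fun h => by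
  simpa [src, tgt] using congrArg L.k h

theorem src_ne_tgt (e e' : Ed ι) : src e ≠ tgt e' := by simpa using smul_src_ne 1 e e'

theorem tgt_eq {e e' : Ed ι} (h : tgt e = tgt e') : e' = e ∨ e' = ⟨e.v * x e.k, op e.k⟩ := by
  rcases og_eq (congrArg L.v h) (by simpa [tgt] using congrArg L.k h) with a | a
  · exact .inl (L.ext a.1 a.2)
  · exact .inr (L.ext a.1 a.2)

theorem tgt_op (e : Ed ι) : tgt (⟨e.v * x e.k, op e.k⟩ : Ed ι) = tgt e := L.ext (og_op _ _) rfl

variable [DecidableEq ι]

theorem norm_x_mul (j : ι × Bool) (u : FreeGroup ι) :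
    u.toWord.head? = some (op j) ∧ norm (x j * u) + 1 = norm u ∨
      u.toWord.head? ≠ some (op j) ∧ norm (x j * u) = norm u + 1 := by
  have e : (x j * u).toWord = reduce (j :: u.toWord) := by
    conv_lhs => rw [← mk_toWord (x := u), x, mul_mk, toWord_mk]
    rfl
  unfold FreeGroup.norm
  rw [e, reduce.cons, reduce_toWord]
  rcases u.toWord with _ | ⟨⟨i, b⟩, tl⟩
  · simp
  · obtain ⟨i', b'⟩ := j
    by_cases h : i' = i ∧ b' = !b
    · obtain ⟨rfl, rfl⟩ := h
      simp [op]
    · refine .inr ⟨fun a => h ?_, by simp [h]⟩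
      simp only [op, List.head?_cons, Option.some.injEq, Prod.mk.injEq] at a
      simp [a.1, a.2]

theorem norm_mul_x' (u : FreeGroup ι) (j : ι × Bool) :
    u⁻¹.toWord.head? = some j ∧ norm (u * x j) + 1 = norm u ∨
      u⁻¹.toWord.head? ≠ some j ∧ norm (u * x j) = norm u + 1 := by
  have := norm_x_mul (op j) u⁻¹
  rwa [op_op, x_op, ← mul_inv_rev, norm_inv_eq, norm_inv_eq] at this

theorem norm_mul_x (u : FreeGroup ι) (j : ι × Bool) :
    norm (u * x j) + 1 = norm u ∨ norm (u * x j) = norm u + 1 :=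
  (norm_mul_x' u j).imp And.right And.right

@[simp] theorem norm_x (j : ι × Bool) : norm (x j) = 1 := by
  simpa using norm_mul_x 1 j

theorem down_unique {u : FreeGroup ι} {j j' : ι × Bool} (h : norm (u * x j) < norm u)
    (h' : norm (u * x j') < norm u) : j = j' := by
  rcases norm_mul_x' u j with a | a
  · rcases norm_mul_x' u j' with b | b
    · exact Option.some.inj (a.1.symm.trans b.1)
    · omega
  · omega

theorem down_exists {u : FreeGroup ι} (h : u ≠ 1) : ∃ j, (u * x j).norm < u.norm := by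
  obtain ⟨j, hj⟩ : ∃ j, u⁻¹.toWord.head? = some j := by
    rcases e : u⁻¹.toWord with _ | ⟨j, _⟩
    · exact absurd (inv_eq_one.1 (toWord_eq_nil_iff.1 e)) h
    · exact ⟨j, rfl⟩
  refine ⟨j, ?_⟩
  rcases norm_mul_x' u j with a | a
  · omega
  · exact absurd hj a.1

omit [DecidableEq ι] in
theorem x_injective : Function.Injective (x (ι := ι)) := fun j j' h => by
  classical
  have := congrArg toWord h
  simpa [x] using this

omit [DecidableEq ι] in
theorem x_ne_one (j : ι × Bool) : x j ≠ 1 := fun h => by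
  classical
  simpa [h] using norm_x j

omit [DecidableEq ι] in
theorem x_mul_x_ne (a b c : ι × Bool) : x a * x b ≠ x c := fun h => by
  classical
  have := norm_mul_x (x a) b
  rw [h, norm_x, norm_x] at this
  omega

/-- the distance from the root `r` -/
def ht (r : FreeGroup ι) (t : Nd ι) : ℕ :=
  norm (r⁻¹ * t.v) + t.k.elim (norm (r⁻¹ * t.v)) fun i => norm (r⁻¹ * t.v * x (i, true))

theorem ht_src (r : FreeGroup ι) (e : Ed ι) : ht r (src e) = norm (r⁻¹ * e.v) + norm (r⁻¹ * e.v) := rfl

theorem ht_tgt (r : FreeGroup ι) (e : Ed ι) :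
    ht r (tgt e) = norm (r⁻¹ * e.v) + norm (r⁻¹ * e.v * x e.k) := by
  obtain ⟨v, i, _ | _⟩ := e
  · simp [ht, tgt, x_true, x_false, mul_assoc, add_comm]
  · rfl

/-- the half edge points to the root -/
def Dn (r : FreeGroup ι) (e : Ed ι) : Prop := norm (r⁻¹ * e.v * x e.k) < norm (r⁻¹ * e.v)

instance (r : FreeGroup ι) (e : Ed ι) : Decidable (Dn r e) := inferInstanceAs (Decidable (_ < _))

/-- the end far from the root -/
def up (r : FreeGroup ι) (e : Ed ι) : Nd ι := if Dn r e then src e else tgt e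

/-- the end near the root -/
def dn (r : FreeGroup ι) (e : Ed ι) : Nd ι := if Dn r e then tgt e else src e

theorem ends (r : FreeGroup ι) (e : Ed ι) :
    up r e = src e ∧ dn r e = tgt e ∨ up r e = tgt e ∧ dn r e = src e := by
  unfold up dn
  split_ifs <;> simp

theorem ht_lt (r : FreeGroup ι) (e : Ed ι) : ht r (dn r e) < ht r (up r e) := by
  have := norm_mul_x (r⁻¹ * e.v) e.k
  unfold up dn
  split_ifs with h <;> rw [ht_src, ht_tgt] <;> unfold Dn at h <;> omega

theorem ht_succ (r : FreeGroup ι) (e : Ed ι) : ht r (up r e) = ht r (dn r e) + 1 := by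
  have := norm_mul_x (r⁻¹ * e.v) e.k
  unfold up dn
  split_ifs with h <;> rw [ht_src, ht_tgt] <;> unfold Dn at h <;> omega

theorem ht_root (r : FreeGroup ι) : ht r ⟨r, none⟩ = 0 := by simp [ht]

theorem up_ne (r : FreeGroup ι) (e : Ed ι) : up r e ≠ ⟨r, none⟩ := fun h => by
  have := ht_lt r e
  rw [h, ht_root] at this
  omega

theorem up_injective (r : FreeGroup ι) : Function.Injective (up r) := fun e e' h => by
  unfold up at h
  split_ifs at h with a b b
  · have e1 : e.v = e'.v := congrArg (L.v : Nd ι → _) h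
    unfold Dn at a b
    rw [← e1] at b
    exact L.ext e1 (down_unique a b)
  · exact absurd h (src_ne_tgt _ _)
  · exact absurd h.symm (src_ne_tgt _ _)
  · rcases tgt_eq h with rfl | rfl
    · rfl
    · have := norm_mul_x (r⁻¹ * e.v) e.k
      simp only [Dn, x_op, ← mul_assoc, mul_inv_cancel_right] at a b
      omega

theorem up_sur (r : FreeGroup ι) (t : Nd ι) (h : t ≠ ⟨r, none⟩) : ∃ e, up r e = t := by
  obtain ⟨v, _ | i⟩ := t
  · obtain ⟨j, hj⟩ := down_exists (u := r⁻¹ * v) fun a => h (by rw [inv_mul_eq_one.1 a])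
    exact ⟨⟨v, j⟩, if_pos hj⟩
  · by_cases a : Dn r ⟨v, i, true⟩
    · refine ⟨⟨v * x (i, true), op (i, true)⟩, (if_neg ?_).trans (tgt_op ⟨v, i, true⟩)⟩
      simp only [Dn, x_op, ← mul_assoc, mul_inv_cancel_right] at a ⊢
      omega
    · exact ⟨⟨v, i, true⟩, if_neg a⟩

end Crest.Agent.N255.Pt
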